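import Vale.Agent.P031.Fin

namespace Vale.Agent.Results.P031.ErdosHall

open Filter Topology Vale.Agent.P031

/-- The Erdős–Hall question: `V(cx)/V(x) → c` for every fixed real `c > 1`. -/
theorem result (c : ℝ) (hc : 1 < c) :
    Tendsto (fun x : ℝ => (V (c * x) : ℝ) / (V x : ℝ)) atTop (𝓝 c) :=
  erdos_hall c hc

end Vale.Agent.Results.P031.ErdosHall
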